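import Vale.Agent.P275.R2.H894.Rows

/-!
# Row OM: the generating coefficients
-/

namespace Vale.Agent.P275.R2.H848

open Filter Topology Vale.Agent.P275.H341 Vale.Agent.P275.R2.H894
open scoped BigOperators

theorem mem_Pt {k : ℕ} {lam : Fin k → ℕ} :
    lam ∈ Pt k ↔ ∑ i, lam i = k ∧ ∀ i j : Fin k, i ≤ j → lam j ≤ lam i := by
  unfold Pt
  rw [Finset.mem_filter, Finset.Nat.mem_antidiagonalTuple]

/-- the partition with one part -/
def top (k : ℕ) : Fin (k + 1) → ℕ := fun i => if i = 0 then k + 1 else 0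

theorem top_mem (k : ℕ) : top k ∈ Pt (k + 1) := by
  rw [mem_Pt]
  refine ⟨by simp [top], fun i j hij => ?_⟩
  unfold top
  by_cases hj : j = 0
  · have hi : i = 0 := by
      apply Fin.le_zero_iff.1
      rw [← hj]; exact hij
    rw [if_pos hj, if_pos hi]
  · rw [if_neg hj]; exact Nat.zero_le _

theorem sum_lt {k : ℕ} {lam : Fin (k + 1) → ℕ} (h : lam ∈ Pt (k + 1)) (hne : lam ≠ top k) :
    ∑ i, lam i * (lam i + 1) / 2 + 1 ≤ (k + 1) * (k + 1 + 1) / 2 := by
  obtain ⟨hs, ha⟩ := mem_Pt.1 h
  have h0 : lam 0 ≤ k := by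
    by_contra hc
    push Not at hc
    have h1 : lam 0 + ∑ i : Fin k, lam i.succ = k + 1 := by
      rw [← Fin.sum_univ_succ]; exact hs
    have h2 : lam 0 = k + 1 := by omega
    have h3 : ∑ i : Fin k, lam i.succ = 0 := by omega
    apply hne
    funext i
    refine Fin.cases ?_ (fun j => ?_) i
    · rw [h2]; simp [top]
    · have h4 := (Finset.sum_eq_zero_iff.1 h3) j (Finset.mem_univ j)
      rw [h4]
      simp [top]
  have hk : k ≠ 0 := by
    rintro rfl
    rw [Fin.sum_univ_one] at hs
    omega
  have h5 : ∀ i, lam i ≤ k := fun i => (ha 0 i (Fin.zero_le i)).trans h0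
  have h6 : ∑ i, lam i * (lam i + 1) ≤ (k + 1) * (k + 1) := by
    calc ∑ i, lam i * (lam i + 1) ≤ ∑ i, lam i * (k + 1) :=
          Finset.sum_le_sum fun i _ => Nat.mul_le_mul_left _ (by have := h5 i; omega)
      _ = (∑ i, lam i) * (k + 1) := by rw [Finset.sum_mul]
      _ = (k + 1) * (k + 1) := by rw [hs]
  have h7 : 2 * ∑ i, lam i * (lam i + 1) / 2 = ∑ i, lam i * (lam i + 1) := by
    rw [Finset.mul_sum]
    refine Finset.sum_congr rfl fun i _ => ?_
    exact Nat.mul_div_cancel' (Nat.even_mul_succ_self (lam i)).two_dvd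
  have h8 : (k + 1) * (k + 1 + 1) = (k + 1) * (k + 1) + (k + 1) := by ring
  omega

theorem rowOM (h1 : RowHK1) (h2 : RowHK2) : RowOM := by
  intro d e g k hd he hg
  set P := 2 * g - 2 with hP
  have hP2 : 2 ≤ P := by omega
  cases k with
  | zero =>
    have e1 : ∀ q : ℕ, om (powMonoidHom P) q d e 0 = 1 := by
      intro q
      have h3 : Pt 0 = {![]} := by
        ext lam
        rw [mem_Pt, Finset.mem_singleton]
        constructor
        · intro _; exact Subsingleton.elim _ _
        · intro _; exact ⟨by simp, fun i => i.elim0⟩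
      rw [om, h3, Finset.sum_singleton]
      simp [hk]
    have h3 : Ex (fun q => om (powMonoidHom P) q d e 0) 0 1 0 :=
      Ex.one.congr fun q => (e1 q).symm
    simpa using h3
  | succ k =>
    have key : Ex (fun q => ∑ lam ∈ Pt (k + 1), (powMonoidHom P) (hk ((q : ℂ) ^ d) lam) ^ e)
        (d * e * P * ((k + 1) * (k + 1 + 1) / 2))
        (∑ lam ∈ Pt (k + 1), if lam = top k then 1 else 0)
        (∑ lam ∈ Pt (k + 1), if lam = top k then ((e : ℂ) * ((P : ℂ) * (if d = 1 then -1 else 0)))
          else 0) := by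
      refine Ex.sum _ fun lam hlam => ?_
      by_cases hl : lam = top k
      · subst hl
        rw [if_pos rfl, if_pos rfl]
        have h3 := ((h2 d k (top k) hd (by simp [top]) (fun i hi => by simp [top, hi])).pow P).pow e
        have h4 : d * ((k + 1) * (k + 2) / 2) * P * e = d * e * P * ((k + 1) * (k + 1 + 1) / 2) := by
          have : k + 2 = k + 1 + 1 := rfl
          rw [this]; ring
        rw [h4] at h3
        exact h3
      · rw [if_neg hl, if_neg hl]
        obtain ⟨b, hb⟩ := h1 d (k + 1) lam hd hlam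
        have h3 := (hb.pow P).pow e
        refine Ex.low h3 ?_
        have h4 := sum_lt hlam hl
        set S := ∑ i, lam i * (lam i + 1) / 2 with hS
        have h5 : 1 ≤ d * e := Nat.mul_pos hd he
        have h6 : 2 ≤ d * e * P := by
          calc 2 ≤ P := hP2
            _ = 1 * P := (one_mul _).symm
            _ ≤ d * e * P := Nat.mul_le_mul_right _ h5
        calc d * S * P * e + 2 = d * e * P * S + 2 := by ring
          _ ≤ d * e * P * S + d * e * P := by omega
          _ = d * e * P * (S + 1) := by ring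
          _ ≤ _ := Nat.mul_le_mul_left _ h4
    rw [Finset.sum_ite_eq' (Pt (k + 1)) (top k), Finset.sum_ite_eq' (Pt (k + 1)) (top k),
      if_pos (top_mem k), if_pos (top_mem k)] at key
    rw [if_neg (Nat.succ_ne_zero k)]
    have h5 : (e : ℂ) * ((P : ℂ) * (if d = 1 then -1 else 0)) =
        if d = 1 then -((P : ℂ) * e) else 0 := by
      split_ifs <;> ring
    rw [h5] at key
    exact key

end Vale.Agent.P275.R2.H848
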